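import Vale.Agent.P308.EX.Move

/-! P308, regular expanders, PART B: counting near-perfect matchings by hole moves. -/

namespace Vale.Agent.P308.EX

open Finset Vale.Agent.P308.BI

set_option linter.unusedSectionVars false

variable {V : Type*} [Fintype V] [DecidableEq V]

open Classical in
theorem step_card {G : SimpleGraph V} [DecidableRel G.Adj] {d : ℕ} (hreg : G.IsRegularOfDegree d)
    {g : V → V} (hg : IsNearPerfect G g) :
    (univ.filter (fun g' : V → V => Step G g g')).card ≤ 2 * d := by
  have hsub : univ.filter (fun g' : V → V => Step G g g') ⊆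
      (univ.filter (fun x => g x = x)).biUnion
        (fun x => (G.neighborFinset x).image (fun a => move g x a)) := by
    intro g' hg'
    obtain ⟨x, a, hx, hxa, -, rfl⟩ := (mem_filter.1 hg').2
    refine mem_biUnion.2 ⟨x, mem_filter.2 ⟨mem_univ _, hx⟩, mem_image.2 ⟨a, ?_, rfl⟩⟩
    rw [SimpleGraph.mem_neighborFinset]; exact hxa
  refine (card_le_card hsub).trans (card_biUnion_le.trans ?_)
  calc ∑ x ∈ univ.filter (fun x => g x = x),
        ((G.neighborFinset x).image (fun a => move g x a)).card
      ≤ ∑ x ∈ univ.filter (fun x => g x = x), d := by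
        refine sum_le_sum (fun x _ => card_image_le.trans ?_)
        rw [SimpleGraph.card_neighborFinset_eq_degree, hreg.degree_eq]
    _ = 2 * d := by
        rw [sum_const, smul_eq_mul]
        congr 1
        convert hg.2

/-- remove the edge at `x` from a matching -/
def unmatch (f : V → V) (x : V) : V → V := fun z => if z = x ∨ z = f x then z else f z

theorem holes_eq {G : SimpleGraph V} {g : V → V} (hg : IsNearPerfect G g) {x y : V}
    (hx : g x = x) (hy : g y = y) (hxy : x ≠ y) (z : V) (hz : g z = z) : z = x ∨ z = y := by
  have hsub : ({x, y} : Finset V) ⊆ univ.filter (fun v => g v = v) := by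
    intro w hw
    simp only [mem_insert, mem_singleton] at hw
    rcases hw with rfl | rfl
    · exact mem_filter.2 ⟨mem_univ _, hx⟩
    · exact mem_filter.2 ⟨mem_univ _, hy⟩
  have heq := eq_of_subset_of_card_le hsub (by rw [hg.2, card_pair hxy])
  have : z ∈ ({x, y} : Finset V) := by
    rw [heq]; exact mem_filter.2 ⟨mem_univ _, hz⟩
  simpa using this

open Classical in
theorem closable_card (G : SimpleGraph V) :
    (univ.filter (fun g : V → V => IsNearPerfect G g ∧ Closable G g)).card
      ≤ Fintype.card V * numPerfect G := by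
  have hsub : univ.filter (fun g : V → V => IsNearPerfect G g ∧ Closable G g) ⊆
      ((univ : Finset V) ×ˢ univ.filter (fun f : V → V => IsPerfect G f)).image
        (fun p => unmatch p.2 p.1) := by
    intro g hg
    obtain ⟨hnp, x, y, hx, hy, hxy⟩ := (mem_filter.1 hg).2
    have hne : x ≠ y := hxy.ne
    have hholes := holes_eq hnp hx hy hne
    have hinv := hnp.1.1
    have hadj := hnp.1.2
    set f' : V → V := fun z => if z = x then y else if z = y then x else g z with hf'
    have e_x : f' x = y := by simp [hf']
    have e_y : f' y = x := by simp [hf', hne.symm]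
    have e_o : ∀ z, z ≠ x → z ≠ y → f' z = g z := fun z h1 h2 => by simp [hf', h1, h2]
    have hgx : ∀ z, z ≠ x → g z ≠ x := fun z h1 h => h1 (by rw [← hinv z, h, hx])
    have hgy : ∀ z, z ≠ y → g z ≠ y := fun z h1 h => h1 (by rw [← hinv z, h, hy])
    have hperf : IsPerfect G f' := by
      refine ⟨⟨?_, ?_⟩, ?_⟩
      · intro z
        by_cases h1 : z = x
        · rw [h1, e_x, e_y]
        by_cases h2 : z = y
        · rw [h2, e_y, e_x]
        rw [e_o z h1 h2, e_o _ (hgx z h1) (hgy z h2), hinv]
      · intro z hz
        by_cases h1 : z = x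
        · rw [h1, e_x]; exact hxy
        by_cases h2 : z = y
        · rw [h2, e_y]; exact hxy.symm
        rw [e_o z h1 h2] at hz ⊢
        exact hadj z hz
      · intro z
        by_cases h1 : z = x
        · rw [h1, e_x]; exact hne.symm
        by_cases h2 : z = y
        · rw [h2, e_y]; exact hne
        rw [e_o z h1 h2]
        intro h
        rcases hholes z h with h | h
        · exact h1 h
        · exact h2 h
    refine mem_image.2 ⟨(x, f'), mem_product.2 ⟨mem_univ _, mem_filter.2 ⟨mem_univ _, hperf⟩⟩, ?_⟩
    funext z
    show unmatch f' x z = g z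
    unfold unmatch
    rw [e_x]
    by_cases h1 : z = x
    · rw [if_pos (Or.inl h1), h1, hx]
    by_cases h2 : z = y
    · rw [if_pos (Or.inr h2), h2, hy]
    rw [if_neg (by tauto), e_o z h1 h2]
  refine (card_le_card hsub).trans (card_image_le.trans ?_)
  rw [card_product, card_univ]
  rfl

theorem reach_nearPerfect {G : SimpleGraph V} {f g : V → V} {t : ℕ} (hf : IsNearPerfect G f)
    (h : Reach G f t g) : IsNearPerfect G g := by
  induction h with
  | refl => exact hf
  | tail _ hs ih => exact step_nearPerfect ih hs

open Classical in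
/-- near-perfect matchings from which a closable one is reachable in at most `t` moves -/
noncomputable def Dset (G : SimpleGraph V) : ℕ → Finset (V → V)
  | 0 => univ.filter (fun g : V → V => IsNearPerfect G g ∧ Closable G g)
  | t + 1 => Dset G t ∪ univ.filter (fun f : V → V => IsNearPerfect G f ∧ ∃ g ∈ Dset G t, Step G f g)

theorem Dset_np (G : SimpleGraph V) (t : ℕ) : ∀ g ∈ Dset G t, IsNearPerfect G g := by
  classical
  induction t with
  | zero =>
    intro g hg
    exact (mem_filter.1 hg).2.1
  | succ t ih =>
    intro g hg
    rcases mem_union.1 hg with h | h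
    · exact ih g h
    · exact (mem_filter.1 h).2.1

theorem Dset_mono (G : SimpleGraph V) {s t : ℕ} (h : s ≤ t) : Dset G s ⊆ Dset G t := by
  induction h with
  | refl => exact Subset.refl _
  | step _ ih => exact ih.trans subset_union_left

theorem Dset_card {G : SimpleGraph V} [DecidableRel G.Adj] {d : ℕ} (hreg : G.IsRegularOfDegree d)
    (t : ℕ) : (Dset G t).card ≤ (2 * d + 1) ^ t * (Fintype.card V * numPerfect G) := by
  classical
  induction t with
  | zero =>
    rw [pow_zero, one_mul]
    exact closable_card G
  | succ t ih =>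
    have hsub : univ.filter (fun f : V → V => IsNearPerfect G f ∧ ∃ g ∈ Dset G t, Step G f g) ⊆
        (Dset G t).biUnion (fun g => univ.filter (fun f : V → V => Step G g f)) := by
      intro f hf
      obtain ⟨hnp, g, hg, hs⟩ := (mem_filter.1 hf).2
      exact mem_biUnion.2 ⟨g, hg, mem_filter.2 ⟨mem_univ _, step_symm hnp.1 hs⟩⟩
    have h1 : (univ.filter
        (fun f : V → V => IsNearPerfect G f ∧ ∃ g ∈ Dset G t, Step G f g)).card
        ≤ (Dset G t).card * (2 * d) := by
      refine (card_le_card hsub).trans (card_biUnion_le.trans ?_)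
      rw [← smul_eq_mul, ← sum_const]
      refine sum_le_sum (fun g hg => ?_)
      convert step_card hreg (Dset_np G t g hg)
    have h2 : (Dset G (t + 1)).card ≤ (Dset G t).card + (Dset G t).card * (2 * d) := by
      refine (card_union_le _ _).trans ?_
      refine Nat.add_le_add_left ?_ _
      convert h1
    calc (Dset G (t + 1)).card ≤ (Dset G t).card + (Dset G t).card * (2 * d) := h2
      _ = (2 * d + 1) * (Dset G t).card := by ring
      _ ≤ (2 * d + 1) * ((2 * d + 1) ^ t * (Fintype.card V * numPerfect G)) :=
          Nat.mul_le_mul_left _ ih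
      _ = _ := by ring

theorem reach_Dset {G : SimpleGraph V} {f g : V → V} {t : ℕ} (hf : IsNearPerfect G f)
    (h : Reach G f t g) : ∀ s, g ∈ Dset G s → f ∈ Dset G (s + t) := by
  classical
  induction h with
  | refl => intro s hs; exact hs
  | @tail t g g' hr hs ih =>
    intro s hg'
    have hg : g ∈ Dset G (s + 1) := by
      refine mem_union.2 (Or.inr (mem_filter.2 ⟨mem_univ _, reach_nearPerfect hf hr, g', hg', hs⟩))
    have := ih (s + 1) hg
    have e : s + (t + 1) = s + 1 + t := by ring
    rw [e]; exact this

theorem count {G : SimpleGraph V} [DecidableRel G.Adj] {d : ℕ} (hreg : G.IsRegularOfDegree d)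
    (T : ℕ)
    (h : ∀ f : V → V, IsNearPerfect G f → ∃ t ≤ T, ∃ g, Reach G f t g ∧ Closable G g) :
    numNearPerfect G ≤ Fintype.card V * (2 * d + 1) ^ T * numPerfect G := by
  classical
  have hsub : univ.filter (fun f : V → V => IsNearPerfect G f) ⊆ Dset G T := by
    intro f hf
    have hnp := (mem_filter.1 hf).2
    obtain ⟨t, ht, g, hr, hc⟩ := h f hnp
    have hg : g ∈ Dset G 0 := mem_filter.2 ⟨mem_univ _, reach_nearPerfect hnp hr, hc⟩
    have := reach_Dset hnp hr 0 hg
    rw [zero_add] at this
    exact Dset_mono G ht this
  have h1 : numNearPerfect G ≤ (Dset G T).card := by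
    unfold numNearPerfect
    convert card_le_card hsub
  refine h1.trans ((Dset_card hreg T).trans (le_of_eq ?_))
  ring

end Vale.Agent.P308.EX
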