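import Vale.Agent.P308.EX.Defs

/-! P308, regular expanders, PART A: basic facts on hole moves. -/

namespace Vale.Agent.P308.EX

open Finset Vale.Agent.P308.BI

set_option linter.unusedSectionVars false

variable {V : Type*} [Fintype V] [DecidableEq V]

theorem move_eq_of_ne (g : V → V) (x a z : V) (h1 : z ≠ x) (h2 : z ≠ a) (h3 : z ≠ g a) :
    move g x a z = g z := by
  simp [move, h1, h2, h3]

theorem move_hole (g : V → V) (x a : V) : move g x a x = a := by
  simp [move]

theorem move_nbr (g : V → V) {x a : V} (h : a ≠ x) : move g x a a = x := by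
  simp [move, h]

theorem move_partner (g : V → V) (x a : V) (h1 : g a ≠ x) (h2 : g a ≠ a) :
    move g x a (g a) = g a := by
  simp [move, h1, h2]

/-- the partner of `a` is not the hole `x`. -/
lemma partner_ne_hole {G : SimpleGraph V} {g : V → V} {x a : V} (hg : IsMatch G g) (hx : g x = x)
    (hxa : G.Adj x a) : g a ≠ x := by
  intro h
  have : a = x := by rw [← hg.1 a, h, hx]
  exact hxa.ne' this

theorem move_isMatch {G : SimpleGraph V} {g : V → V} {x a : V} (hg : IsMatch G g) (hx : g x = x)
    (hxa : G.Adj x a) (ha : g a ≠ a) : IsMatch G (move g x a) := by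
  have hinj : ∀ y z, g y = g z → y = z := fun y z h => by rw [← hg.1 y, h, hg.1 z]
  have hax : a ≠ x := hxa.ne'
  have hbx : g a ≠ x := partner_ne_hole hg hx hxa
  have e_x := move_hole g x a
  have e_a := move_nbr g hax
  have e_b := move_partner g x a hbx ha
  have e_o := move_eq_of_ne g x a
  refine ⟨?_, ?_⟩
  · intro z
    by_cases h1 : z = x
    · rw [h1, e_x, e_a]
    by_cases h2 : z = a
    · rw [h2, e_a, e_x]
    by_cases h3 : z = g a
    · rw [h3, e_b, e_b]
    have h4 : g z ≠ x := fun h => h1 (hinj z x (by rw [h, hx]))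
    have h5 : g z ≠ a := fun h => h3 (by rw [← h, hg.1 z])
    have h6 : g z ≠ g a := fun h => h2 (hinj z a h)
    rw [e_o z h1 h2 h3, e_o _ h4 h5 h6, hg.1 z]
  · intro z hz
    by_cases h1 : z = x
    · rw [h1, e_x]; exact hxa
    by_cases h2 : z = a
    · rw [h2, e_a]; exact hxa.symm
    by_cases h3 : z = g a
    · rw [h3, e_b] at hz; exact absurd rfl hz
    rw [e_o z h1 h2 h3] at hz ⊢
    exact hg.2 z hz

theorem move_fix {G : SimpleGraph V} {g : V → V} {x a : V} (hg : IsMatch G g) (hx : g x = x)
    (hxa : G.Adj x a) (ha : g a ≠ a) (z : V) :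
    move g x a z = z ↔ (z = g a ∨ (g z = z ∧ z ≠ x)) := by
  have hax : a ≠ x := hxa.ne'
  have hbx : g a ≠ x := partner_ne_hole hg hx hxa
  by_cases h1 : z = x
  · rw [h1, move_hole]
    constructor
    · intro h; exact absurd h hax
    · rintro (h | h)
      · exact absurd h.symm hbx
      · exact absurd rfl h.2
  by_cases h2 : z = a
  · rw [h2, move_nbr g hax]
    constructor
    · intro h; exact absurd h.symm hax
    · rintro (h | h)
      · exact absurd h.symm ha
      · exact absurd h.1 ha
  by_cases h3 : z = g a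
  · rw [h3, move_partner g x a hbx ha]
    exact ⟨fun _ => Or.inl rfl, fun _ => rfl⟩
  rw [move_eq_of_ne g x a z h1 h2 h3]
  constructor
  · intro h; exact Or.inr ⟨h, h1⟩
  · rintro (h | h)
    · exact absurd h h3
    · exact h.1

theorem step_symm {G : SimpleGraph V} {g g' : V → V} (hg : IsMatch G g) (h : Step G g g') :
    Step G g' g := by
  obtain ⟨x, a, hx, hxa, ha, rfl⟩ := h
  have hax : a ≠ x := hxa.ne'
  have hbx : g a ≠ x := partner_ne_hole hg hx hxa
  refine ⟨g a, a, move_partner g x a hbx ha, (hg.2 a ha).symm, ?_, ?_⟩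
  · rw [move_nbr g hax]; exact hax.symm
  · funext z
    have e_a : move g x a a = x := move_nbr g hax
    by_cases h3 : z = g a
    · rw [h3, move_hole, hg.1 a]
    by_cases h2 : z = a
    · rw [h2, move_nbr _ ha.symm]
    by_cases h1 : z = x
    · rw [h1]
      have : move (move g x a) (g a) a x = x := by
        have hh := move_partner (move g x a) (g a) a (by rw [e_a]; exact hbx.symm)
          (by rw [e_a]; exact hax.symm)
        rwa [e_a] at hh
      rw [this, hx]
    rw [move_eq_of_ne (move g x a) (g a) a z h3 h2 (by rw [e_a]; exact h1),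
      move_eq_of_ne g x a z h1 h2 h3]

theorem step_nearPerfect {G : SimpleGraph V} {g g' : V → V} (hg : IsNearPerfect G g)
    (h : Step G g g') : IsNearPerfect G g' := by
  obtain ⟨x, a, hx, hxa, ha, rfl⟩ := h
  obtain ⟨hm, hc⟩ := hg
  refine ⟨move_isMatch hm hx hxa ha, ?_⟩
  have hset : univ.filter (fun z => move g x a z = z)
      = insert (g a) ((univ.filter (fun z => g z = z)).erase x) := by
    ext z
    rw [mem_filter, mem_insert, mem_erase, mem_filter, move_fix hm hx hxa ha z]
    constructor
    · rintro ⟨_, h | h⟩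
      · exact Or.inl h
      · exact Or.inr ⟨h.2, mem_univ _, h.1⟩
    · rintro (h | h)
      · exact ⟨mem_univ _, Or.inl h⟩
      · exact ⟨mem_univ _, Or.inr ⟨h.2.2, h.1⟩⟩
  have hnot : g a ∉ (univ.filter (fun z => g z = z)).erase x := by
    intro hmem
    rw [mem_erase, mem_filter] at hmem
    have h1 : g (g a) = g a := hmem.2.2
    rw [hm.1 a] at h1
    exact ha h1.symm
  have hxmem : x ∈ univ.filter (fun z => g z = z) := by
    rw [mem_filter]; exact ⟨mem_univ _, hx⟩
  rw [hset, card_insert_of_notMem hnot, card_erase_of_mem hxmem, hc]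

end Vale.Agent.P308.EX
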