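import Vale.Agent.P308.BI.Defs

/-! P308, regular expanders: definitions (hole moves on near-perfect matchings).
Matchings are involutions as in `BI/Defs.lean`. -/

namespace Vale.Agent.P308.EX

open Finset Vale.Agent.P308.BI

variable {V : Type*} [Fintype V] [DecidableEq V]

/-- move the hole `x` of the matching `g` across the neighbour `a`: `x` gets matched to `a`,
the old partner `g a` of `a` becomes the new hole. -/
def move (g : V → V) (x a : V) : V → V :=
  fun z => if z = x then a else if z = a then x else if z = g a then z else g z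

/-- one hole move -/
def Step (G : SimpleGraph V) (g g' : V → V) : Prop :=
  ∃ x a, g x = x ∧ G.Adj x a ∧ g a ≠ a ∧ g' = move g x a

/-- `g` is obtained from `f` by exactly `t` hole moves -/
inductive Reach (G : SimpleGraph V) (f : V → V) : ℕ → (V → V) → Prop
  | refl : Reach G f 0 f
  | tail {t : ℕ} {g g' : V → V} : Reach G f t g → Step G g g' → Reach G f (t + 1) g'

/-- the two holes are adjacent -/
def Closable (G : SimpleGraph V) (g : V → V) : Prop :=
  ∃ x y, g x = x ∧ g y = y ∧ G.Adj x y

/-- neighbourhood of a set -/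
def nbrs (G : SimpleGraph V) [DecidableRel G.Adj] (S : Finset V) : Finset V :=
  univ.filter (fun y => ∃ x ∈ S, G.Adj x y)

/-- number of ordered adjacent pairs in `S × T` -/
def eST (G : SimpleGraph V) [DecidableRel G.Adj] (S T : Finset V) : ℕ :=
  ((S ×ˢ T).filter (fun p => G.Adj p.1 p.2)).card

/-- spectral condition: `‖A x‖ ≤ lam ‖x‖` for all `x` orthogonal to the constants. -/
def SpecGap (G : SimpleGraph V) [DecidableRel G.Adj] (lam : ℝ) : Prop :=
  ∀ x : V → ℝ, ∑ v, x v = 0 →
    ∑ v, (∑ w ∈ G.neighborFinset v, x w) ^ 2 ≤ lam ^ 2 * ∑ v, x v ^ 2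

end Vale.Agent.P308.EX
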