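import Vale.Agent.P308.EX.Move

/-! P308, regular expanders, PART C: two-sided growth of the sets of reachable holes. -/

namespace Vale.Agent.P308.EX

open Finset Vale.Agent.P308.BI

set_option linter.unusedSectionVars false

variable {V : Type*} [Fintype V] [DecidableEq V]

/-- the invariant of the growth process -/
structure Inv (G : SimpleGraph V) (f : V → V) (T : ℕ) (X Eu Ev : Finset V) : Prop where
  closed : ∀ z ∈ X, f z ∈ X
  fixX : ∀ z, f z = z → z ∈ X
  subU : Eu ⊆ X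
  subV : Ev ⊆ X
  reach : ∀ x ∈ Eu, ∀ y ∈ Ev, ∃ g, Reach G f T g ∧ IsMatch G g ∧ g x = x ∧ g y = y ∧ x ≠ y ∧
    (∀ z, g z = z → z = x ∨ z = y) ∧ ∀ z, z ∉ X → g z = f z

theorem Inv.symm {G : SimpleGraph V} {f : V → V} {T : ℕ} {X Eu Ev : Finset V}
    (h : Inv G f T X Eu Ev) : Inv G f T X Ev Eu :=
  ⟨h.closed, h.fixX, h.subV, h.subU, fun y hy x hx => by
    obtain ⟨g, h1, h2, h3, h4, h5, h6, h7⟩ := h.reach x hx y hy
    exact ⟨g, h1, h2, h4, h3, h5.symm, fun z hz => (h6 z hz).symm, h7⟩⟩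

theorem Inv.step {G : SimpleGraph V} [DecidableRel G.Adj] {f : V → V} {T : ℕ}
    {X Eu Ev : Finset V} (hf : IsMatch G f) (h : Inv G f T X Eu Ev) (O : Finset V)
    (hO : O ⊆ nbrs G Eu \ X) :
    Inv G f (T + 1) (X ∪ O ∪ O.image f) (O.image f) Ev := by
  refine ⟨?_, ?_, ?_, ?_, ?_⟩
  · intro z hz
    simp only [mem_union, mem_image] at hz ⊢
    rcases hz with (hz | hz) | ⟨a, ha, rfl⟩
    · exact Or.inl (Or.inl (h.closed z hz))
    · exact Or.inr ⟨z, hz, rfl⟩
    · rw [hf.1 a]; exact Or.inl (Or.inr ha)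
  · intro z hz
    simp only [mem_union]
    exact Or.inl (Or.inl (h.fixX z hz))
  · exact subset_union_right
  · exact h.subV.trans (subset_union_left.trans subset_union_left)
  · intro x' hx' y hy
    obtain ⟨a, haO, rfl⟩ := mem_image.1 hx'
    have haO' := hO haO
    simp only [mem_sdiff, nbrs, mem_filter, mem_univ, true_and] at haO'
    obtain ⟨⟨x, hx, hxa⟩, haX⟩ := haO'
    obtain ⟨g, h1, h2, h3, h4, h5, h6, h7⟩ := h.reach x hx y hy
    have hga : g a = f a := h7 a haX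
    have hfaX : f a ∉ X := by
      intro hc
      have := h.closed _ hc
      rw [hf.1 a] at this
      exact haX this
    have hfa : f a ≠ a := fun hc => haX (h.fixX a hc)
    have hga' : g a ≠ a := by rw [hga]; exact hfa
    refine ⟨move g x a, Reach.tail h1 ⟨x, a, h3, hxa, hga', rfl⟩, move_isMatch h2 h3 hxa hga',
      ?_, ?_, ?_, ?_, ?_⟩
    · exact (move_fix h2 h3 hxa hga' (f a)).2 (Or.inl hga.symm)
    · exact (move_fix h2 h3 hxa hga' y).2 (Or.inr ⟨h4, h5.symm⟩)
    · intro hc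
      exact hfaX (hc ▸ h.subV hy)
    · intro z hz
      rcases (move_fix h2 h3 hxa hga' z).1 hz with hz | ⟨hz, hzx⟩
      · exact Or.inl (hz.trans hga)
      · rcases h6 z hz with hz | hz
        · exact absurd hz hzx
        · exact Or.inr hz
    · intro z hz
      simp only [mem_union, mem_image, not_or] at hz
      obtain ⟨⟨hzX, hzO⟩, hzI⟩ := hz
      rw [move_eq_of_ne g x a z ?_ ?_ ?_]
      · exact h7 z hzX
      · rintro rfl; exact hzX (h.subU hx)
      · rintro rfl; exact hzO haO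
      · rintro rfl; exact hzI ⟨a, haO, hga.symm⟩

theorem card_image_match {G : SimpleGraph V} {f : V → V} (hf : IsMatch G f) (O : Finset V) :
    (O.image f).card = O.card :=
  card_image_of_injective _ (fun a b hab => by
    have := congrArg f hab
    rwa [hf.1, hf.1] at this)

theorem grow_aux {G : SimpleGraph V} [DecidableRel G.Adj] {f : V → V} {u v : V}
    (hf : IsMatch G f)
    (hu : f u = u) (hv : f v = v) (huv : u ≠ v) (hfix : ∀ x, f x = x → x = u ∨ x = v)
    (κ : ℕ) (hκ : 2 ≤ κ) (I : ℕ)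
    (hE1 : ∀ i < I, ∀ S : Finset V, S.card = κ ^ i → (3 * κ + 8) * κ ^ i ≤ (nbrs G S).card) :
    ∃ X Eu Ev : Finset V, Inv G f (2 * I) X Eu Ev ∧ X.card ≤ 8 * κ ^ I ∧
      Eu.card = κ ^ I ∧ Ev.card = κ ^ I := by
  induction I with
  | zero =>
    refine ⟨{u, v}, {u}, {v}, ⟨?_, ?_, ?_, ?_, ?_⟩, ?_, by simp, by simp⟩
    · intro z hz
      simp only [mem_insert, mem_singleton] at hz ⊢
      rcases hz with rfl | rfl
      · exact Or.inl hu
      · exact Or.inr hv
    · intro z hz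
      simp only [mem_insert, mem_singleton]
      exact hfix z hz
    · simp
    · simp
    · intro x hx y hy
      rw [mem_singleton] at hx hy
      subst hx; subst hy
      exact ⟨f, Reach.refl, hf, hu, hv, huv, hfix, fun _ _ => rfl⟩
    · rw [card_pair huv]; norm_num
  | succ I ih =>
    obtain ⟨X, Eu, Ev, hInv, hX, hEu, hEv⟩ := ih (fun i hi => hE1 i (by omega))
    have hexp := hE1 I (by omega)
    have hpow : κ ^ (I + 1) = κ * κ ^ I := by rw [pow_succ]; ring
    -- first side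
    have h1 : κ ^ (I + 1) ≤ (nbrs G Eu \ X).card := by
      have := hexp Eu hEu
      have h2 := le_card_sdiff X (nbrs G Eu)
      have h3 : (3 * κ + 8) * κ ^ I = 3 * (κ * κ ^ I) + 8 * κ ^ I := by ring
      rw [hpow]
      omega
    obtain ⟨O, hO, hOc⟩ := exists_subset_card_eq h1
    have hInv1 := hInv.step hf O hO
    set X1 := X ∪ O ∪ O.image f with hX1
    have hX1c : X1.card ≤ 8 * κ ^ I + 2 * κ ^ (I + 1) := by
      have a1 := card_union_le (X ∪ O) (O.image f)
      have a2 := card_union_le X O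
      rw [card_image_match hf] at a1
      rw [hX1]
      omega
    -- second side
    have h2 : κ ^ (I + 1) ≤ (nbrs G Ev \ X1).card := by
      have := hexp Ev hEv
      have h2 := le_card_sdiff X1 (nbrs G Ev)
      have h3 : (3 * κ + 8) * κ ^ I = 3 * (κ * κ ^ I) + 8 * κ ^ I := by ring
      rw [hpow] at hX1c ⊢
      omega
    obtain ⟨O2, hO2, hO2c⟩ := exists_subset_card_eq h2
    have hInv2 := (hInv1.symm.step hf O2 hO2).symm
    refine ⟨X1 ∪ O2 ∪ O2.image f, O.image f, O2.image f, ?_, ?_, ?_, ?_⟩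
    · have : 2 * (I + 1) = 2 * I + 1 + 1 := by ring
      rw [this]; exact hInv2
    · have a1 := card_union_le (X1 ∪ O2) (O2.image f)
      have a2 := card_union_le X1 O2
      rw [card_image_match hf] at a1
      have a3 : 2 * κ ^ I ≤ κ * κ ^ I := Nat.mul_le_mul_right _ hκ
      rw [hpow] at hX1c hO2c ⊢
      omega
    · rw [card_image_match hf, hOc]
    · rw [card_image_match hf, hO2c]

theorem grow {G : SimpleGraph V} [DecidableRel G.Adj] {f : V → V} {u v : V} (hf : IsMatch G f)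
    (hu : f u = u) (hv : f v = v) (huv : u ≠ v) (hfix : ∀ x, f x = x → x = u ∨ x = v)
    (κ : ℕ) (hκ : 2 ≤ κ) (I : ℕ)
    (hE1 : ∀ i < I, ∀ S : Finset V, S.card = κ ^ i → (3 * κ + 8) * κ ^ i ≤ (nbrs G S).card) :
    ∃ Eu Ev : Finset V, Eu.card = κ ^ I ∧ Ev.card = κ ^ I ∧
      ∀ x ∈ Eu, ∀ y ∈ Ev, ∃ g, Reach G f (2 * I) g ∧ g x = x ∧ g y = y := by
  obtain ⟨X, Eu, Ev, hInv, -, hEu, hEv⟩ := grow_aux hf hu hv huv hfix κ hκ I hE1
  refine ⟨Eu, Ev, hEu, hEv, fun x hx y hy => ?_⟩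
  obtain ⟨g, h1, -, h3, h4, -⟩ := hInv.reach x hx y hy
  exact ⟨g, h1, h3, h4⟩

end Vale.Agent.P308.EX
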