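import Vale.Agent.P308.EX.Defs

/-! P308, regular expanders, PART D: expander mixing lemma and its two consequences. -/

namespace Vale.Agent.P308.EX

open Finset Vale.Agent.P308.BI

set_option linter.unusedSectionVars false

variable {V : Type*} [Fintype V] [DecidableEq V]

lemma eST_eq_right (G : SimpleGraph V) [DecidableRel G.Adj] (S T : Finset V) :
    eST G S T = ∑ v ∈ T, (S.filter (fun w => G.Adj w v)).card := by
  unfold eST
  rw [Finset.card_filter, Finset.sum_product_right]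
  refine Finset.sum_congr rfl fun v _ => ?_
  rw [Finset.card_filter]

lemma eST_eq_left (G : SimpleGraph V) [DecidableRel G.Adj] (S T : Finset V) :
    eST G S T = ∑ w ∈ S, (T.filter (fun v => G.Adj w v)).card := by
  unfold eST
  rw [Finset.card_filter, Finset.sum_product]
  refine Finset.sum_congr rfl fun v _ => ?_
  rw [Finset.card_filter]

theorem eml_sq {G : SimpleGraph V} [DecidableRel G.Adj] {d : ℕ} (hreg : G.IsRegularOfDegree d)
    {lam : ℝ} (hspec : SpecGap G lam) (S T : Finset V) :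
    ((eST G S T : ℝ) - d * S.card * T.card / Fintype.card V) ^ 2 ≤ lam ^ 2 * S.card * T.card := by
  rcases Nat.eq_zero_or_pos (Fintype.card V) with hN | hN
  · have hE : IsEmpty V := Fintype.card_eq_zero_iff.1 hN
    have hS : S = ∅ := Finset.eq_empty_of_isEmpty S
    have hT : T = ∅ := Finset.eq_empty_of_isEmpty T
    subst hS hT
    simp [eST]
  obtain ⟨N, hNdef⟩ : ∃ N : ℝ, N = Fintype.card V := ⟨_, rfl⟩
  have hNpos : 0 < N := by rw [hNdef]; exact_mod_cast hN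
  rw [← hNdef]
  obtain ⟨s, hs⟩ : ∃ s : ℝ, s = S.card / N := ⟨_, rfl⟩
  have hs0 : 0 ≤ s := by rw [hs]; positivity
  have hsN : s * N = S.card := by rw [hs]; field_simp
  have hind : ∑ v : V, (if v ∈ S then (1 : ℝ) else 0) = S.card := by
    rw [Finset.sum_ite_mem, Finset.univ_inter, Finset.sum_const, nsmul_eq_mul, mul_one]
  have hx0 : ∑ v : V, ((if v ∈ S then (1 : ℝ) else 0) - s) = 0 := by
    rw [Finset.sum_sub_distrib, hind, Finset.sum_const, nsmul_eq_mul, Finset.card_univ, ← hNdef]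
    linarith
  have hx2 : ∑ v : V, ((if v ∈ S then (1 : ℝ) else 0) - s) ^ 2 ≤ S.card := by
    have h1 : ∀ v : V, ((if v ∈ S then (1 : ℝ) else 0) - s) ^ 2
        = (1 - 2 * s) * (if v ∈ S then (1 : ℝ) else 0) + s ^ 2 := by
      intro v
      by_cases hv : v ∈ S
      · simp only [hv, if_true]; ring
      · simp only [hv, if_false]; ring
    simp_rw [h1]
    rw [Finset.sum_add_distrib, ← Finset.mul_sum, hind, Finset.sum_const, nsmul_eq_mul,
      Finset.card_univ, ← hNdef]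
    have h2 : N * s ^ 2 = s * S.card := by rw [← hsN]; ring
    rw [h2]
    have h3 : (0 : ℝ) ≤ s * S.card := mul_nonneg hs0 (Nat.cast_nonneg _)
    linarith
  have hAx : ∀ v : V, ∑ w ∈ G.neighborFinset v, ((if w ∈ S then (1 : ℝ) else 0) - s)
      = ((S.filter (fun w => G.Adj w v)).card : ℝ) - d * s := by
    intro v
    rw [Finset.sum_sub_distrib, Finset.sum_const, nsmul_eq_mul, G.card_neighborFinset_eq_degree,
      hreg.degree_eq v, Finset.sum_boole]
    congr 2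
    congr 1
    ext w
    simp only [mem_filter, SimpleGraph.mem_neighborFinset]
    constructor
    · rintro ⟨h1, h2⟩; exact ⟨h2, h1.symm⟩
    · rintro ⟨h1, h2⟩; exact ⟨h2.symm, h1⟩
  have hsum : (eST G S T : ℝ) - d * S.card * T.card / N
      = ∑ v ∈ T, ∑ w ∈ G.neighborFinset v, ((if w ∈ S then (1 : ℝ) else 0) - s) := by
    simp_rw [hAx]
    rw [Finset.sum_sub_distrib, Finset.sum_const, nsmul_eq_mul, eST_eq_right]
    push_cast
    rw [hs]
    ring
  rw [hsum]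
  have h4 := hspec (fun v => (if v ∈ S then (1 : ℝ) else 0) - s) hx0
  calc (∑ v ∈ T, ∑ w ∈ G.neighborFinset v, ((if w ∈ S then (1 : ℝ) else 0) - s)) ^ 2
      ≤ T.card * ∑ v ∈ T, (∑ w ∈ G.neighborFinset v, ((if w ∈ S then (1 : ℝ) else 0) - s)) ^ 2 :=
        sq_sum_le_card_mul_sum_sq
    _ ≤ T.card * ∑ v, (∑ w ∈ G.neighborFinset v, ((if w ∈ S then (1 : ℝ) else 0) - s)) ^ 2 := by
        refine mul_le_mul_of_nonneg_left ?_ (Nat.cast_nonneg _)
        exact Finset.sum_le_sum_of_subset_of_nonneg (Finset.subset_univ _)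
          fun v _ _ => sq_nonneg _
    _ ≤ T.card * (lam ^ 2 * ∑ v : V, ((if v ∈ S then (1 : ℝ) else 0) - s) ^ 2) :=
        mul_le_mul_of_nonneg_left h4 (Nat.cast_nonneg _)
    _ ≤ T.card * (lam ^ 2 * S.card) := by
        refine mul_le_mul_of_nonneg_left ?_ (Nat.cast_nonneg _)
        exact mul_le_mul_of_nonneg_left hx2 (sq_nonneg _)
    _ = lam ^ 2 * S.card * T.card := by ring

lemma eST_nbrs {G : SimpleGraph V} [DecidableRel G.Adj] {d : ℕ} (hreg : G.IsRegularOfDegree d)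
    (S : Finset V) : eST G S (nbrs G S) = d * S.card := by
  rw [eST_eq_left, mul_comm, ← smul_eq_mul, ← Finset.sum_const]
  refine Finset.sum_congr rfl fun w hw => ?_
  rw [← hreg.degree_eq w, ← G.card_neighborFinset_eq_degree]
  congr 1
  ext v
  simp only [nbrs, mem_filter, mem_univ, true_and, SimpleGraph.mem_neighborFinset]
  constructor
  · rintro ⟨_, h⟩; exact h
  · intro h; exact ⟨⟨w, hw, h⟩, h⟩

theorem expand_small {G : SimpleGraph V} [DecidableRel G.Adj] {d : ℕ} (hd : 0 < d)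
    (hreg : G.IsRegularOfDegree d) {lam : ℝ} (hlam : 0 ≤ lam) (hspec : SpecGap G lam)
    (K : ℕ) (hK : 1 ≤ K) (hgap : 2 * K * lam ≤ d) (S : Finset V)
    (hS : 2 * K * S.card ≤ Fintype.card V) : K * S.card ≤ (nbrs G S).card := by
  by_contra hcon
  have hlt : (nbrs G S).card < K * S.card := not_le.1 hcon
  have hSpos : 0 < S.card := by
    rcases Nat.eq_zero_or_pos S.card with h | h
    · rw [h] at hlt; simp at hlt
    · exact h
  have hNpos : 0 < Fintype.card V := by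
    have : 0 < 2 * K * S.card := by positivity
    omega
  have h1 := eml_sq hreg hspec S (nbrs G S)
  rw [eST_nbrs hreg S] at h1
  push_cast at h1
  obtain ⟨N, hNdef⟩ : ∃ N : ℝ, N = Fintype.card V := ⟨_, rfl⟩
  obtain ⟨σ, hσ⟩ : ∃ σ : ℝ, σ = S.card := ⟨_, rfl⟩
  obtain ⟨τ, hτ⟩ : ∃ τ : ℝ, τ = (nbrs G S).card := ⟨_, rfl⟩
  obtain ⟨k, hk⟩ : ∃ k : ℝ, k = K := ⟨_, rfl⟩
  obtain ⟨δ, hδ⟩ : ∃ δ : ℝ, δ = d := ⟨_, rfl⟩
  rw [← hNdef, ← hσ, ← hτ, ← hδ] at h1
  rw [← hk, ← hδ] at hgap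
  have hN0 : 0 < N := by rw [hNdef]; exact_mod_cast hNpos
  have hσ0 : 0 < σ := by rw [hσ]; exact_mod_cast hSpos
  have hτ0 : 0 ≤ τ := by rw [hτ]; exact Nat.cast_nonneg _
  have hk1 : 1 ≤ k := by rw [hk]; exact_mod_cast hK
  have hδ0 : 0 < δ := by rw [hδ]; exact_mod_cast hd
  have hτlt : τ < k * σ := by rw [hτ, hk, hσ]; exact_mod_cast hlt
  have hSN : 2 * k * σ ≤ N := by rw [hk, hσ, hNdef]; exact_mod_cast hS
  -- `τ / N < 1 / 2`
  have h2 : δ * σ * τ / N ≤ δ * σ / 2 := by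
    rw [div_le_div_iff₀ hN0 (by norm_num)]
    have : 2 * τ ≤ N := by linarith
    nlinarith [mul_pos hδ0 hσ0]
  have h3 : δ * σ / 2 ≤ δ * σ - δ * σ * τ / N := by linarith
  have h4 : (δ * σ / 2) ^ 2 ≤ (δ * σ - δ * σ * τ / N) ^ 2 :=
    pow_le_pow_left₀ (by positivity) h3 2
  have h5 : (δ * σ / 2) ^ 2 ≤ lam ^ 2 * σ * τ := le_trans h4 h1
  have h6 : lam ^ 2 * σ * τ ≤ lam ^ 2 * σ * (k * σ) :=
    mul_le_mul_of_nonneg_left hτlt.le (by positivity)
  -- `δ^2 ≤ 4 k lam^2`, with strictness coming from `τ < k σ` unless `lam = 0`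
  have h7 : δ ^ 2 * σ ^ 2 ≤ 4 * k * lam ^ 2 * σ ^ 2 := by nlinarith
  have h8 : δ ^ 2 ≤ 4 * k * lam ^ 2 := by
    have hσ2 : 0 < σ ^ 2 := by positivity
    exact le_of_mul_le_mul_right h7 hσ2
  have h9 : (2 * k * lam) ^ 2 ≤ δ ^ 2 := pow_le_pow_left₀ (by positivity) hgap 2
  -- so `4 k^2 lam^2 ≤ 4 k lam^2`
  rcases eq_or_lt_of_le hlam with hl0 | hl0
  · rw [← hl0] at h8
    nlinarith
  · -- strict version
    have h6' : lam ^ 2 * σ * τ < lam ^ 2 * σ * (k * σ) :=
      mul_lt_mul_of_pos_left hτlt (by positivity)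
    have h7' : δ ^ 2 * σ ^ 2 < 4 * k * lam ^ 2 * σ ^ 2 := by nlinarith
    have h8' : δ ^ 2 < 4 * k * lam ^ 2 := by
      have hσ2 : 0 < σ ^ 2 := by positivity
      exact lt_of_mul_lt_mul_right h7' hσ2.le
    have h10 : 4 * k * lam ^ 2 ≤ (2 * k * lam) ^ 2 := by
      have : 0 < lam ^ 2 := by positivity
      nlinarith
    linarith

theorem edge_between {G : SimpleGraph V} [DecidableRel G.Adj] {d : ℕ}
    (hreg : G.IsRegularOfDegree d) {lam : ℝ} (hlam : 0 ≤ lam) (hspec : SpecGap G lam)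
    (S T : Finset V) (m : ℕ) (hS : S.card = m) (hT : T.card = m)
    (hm : lam * Fintype.card V < d * m) : ∃ x ∈ S, ∃ y ∈ T, G.Adj x y := by
  by_contra hcon
  push_neg at hcon
  have h0 : eST G S T = 0 := by
    unfold eST
    rw [Finset.card_eq_zero, Finset.filter_eq_empty_iff]
    intro p hp
    rw [mem_product] at hp
    exact hcon p.1 hp.1 p.2 hp.2
  have h1 := eml_sq hreg hspec S T
  rw [h0, hS, hT] at h1
  push_cast at h1
  obtain ⟨N, hNdef⟩ : ∃ N : ℝ, N = Fintype.card V := ⟨_, rfl⟩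
  obtain ⟨μ, hμ⟩ : ∃ μ : ℝ, μ = m := ⟨_, rfl⟩
  obtain ⟨δ, hδ⟩ : ∃ δ : ℝ, δ = d := ⟨_, rfl⟩
  rw [← hNdef, ← hμ, ← hδ] at h1
  rw [← hNdef, ← hμ, ← hδ] at hm
  have hN0 : 0 ≤ N := by rw [hNdef]; exact Nat.cast_nonneg _
  have hμ0 : 0 ≤ μ := by rw [hμ]; exact Nat.cast_nonneg _
  have hδ0 : 0 ≤ δ := by rw [hδ]; exact Nat.cast_nonneg _
  have hpos : 0 < δ * μ := lt_of_le_of_lt (mul_nonneg hlam hN0) hm
  have hμpos : 0 < μ := by
    rcases eq_or_lt_of_le hμ0 with h | h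
    · rw [← h] at hpos; simp at hpos
    · exact h
  have hNpos : 0 < N := by
    rcases eq_or_lt_of_le hN0 with h | h
    · -- `N = 0` forces `S = ∅`, so `m = 0`
      exfalso
      have hc : Fintype.card V = 0 := by
        have : (Fintype.card V : ℝ) = 0 := by rw [← hNdef, ← h]
        exact_mod_cast this
      have hE : IsEmpty V := Fintype.card_eq_zero_iff.1 hc
      have hSe : S = ∅ := Finset.eq_empty_of_isEmpty S
      rw [hSe, Finset.card_empty] at hS
      rw [hμ, ← hS] at hμpos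
      simp at hμpos
    · exact h
  have h2 : (δ * μ * μ / N) ^ 2 ≤ (lam * μ) ^ 2 := by
    have e1 : (0 - δ * μ * μ / N) ^ 2 = (δ * μ * μ / N) ^ 2 := by ring
    have e2 : lam ^ 2 * μ * μ = (lam * μ) ^ 2 := by ring
    rw [e1, e2] at h1
    exact h1
  have h3 : δ * μ * μ / N ≤ lam * μ :=
    (pow_le_pow_iff_left₀ (by positivity) (by positivity) (by norm_num)).1 h2
  rw [div_le_iff₀ hNpos] at h3
  have h4 : δ * μ ≤ lam * N := by
    have : (δ * μ) * μ ≤ (lam * N) * μ := by linarith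
    exact le_of_mul_le_mul_right this hμpos
  linarith

end Vale.Agent.P308.EX
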