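import Vale.Agent.P308.EX.Count
import Vale.Agent.P308.EX.Grow
import Vale.Agent.P308.EX.Spectral

/-! P308, regular expanders: the main inequality (near-perfect versus perfect matchings). -/

namespace Vale.Agent.P308.EX

open Finset Vale.Agent.P308.BI

variable {V : Type*} [Fintype V] [DecidableEq V]

theorem main (G : SimpleGraph V) [DecidableRel G.Adj] (d κ : ℕ) (lam : ℝ) (hd : 0 < d)
    (hreg : G.IsRegularOfDegree d) (hκ : 2 ≤ κ) (hlam : 0 ≤ lam) (hspec : SpecGap G lam)
    (hgap : (6 * κ + 16) * lam ≤ d) :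
    numNearPerfect G ≤
      Fintype.card V * (2 * d + 1) ^ (2 * Nat.log κ (Fintype.card V)) * numPerfect G := by
  classical
  have hdR : (0 : ℝ) < d := by exact_mod_cast hd
  have hκR : (2 : ℝ) ≤ κ := by exact_mod_cast hκ
  -- the stopping index
  have hex : ∃ i : ℕ, lam * (Fintype.card V : ℝ) < d * (κ : ℝ) ^ i := by
    have h1 : (1 : ℝ) < κ := by linarith
    obtain ⟨i, hi⟩ := pow_unbounded_of_one_lt (lam * (Fintype.card V : ℝ) / d) h1
    refine ⟨i, ?_⟩
    rw [div_lt_iff₀ hdR] at hi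
    linarith
  set I := Nat.find hex with hI
  have hIspec : lam * (Fintype.card V : ℝ) < d * (κ : ℝ) ^ I := Nat.find_spec hex
  have hImin : ∀ i < I, (d : ℝ) * (κ : ℝ) ^ i ≤ lam * (Fintype.card V : ℝ) := by
    intro i hi
    exact not_lt.mp (Nat.find_min hex hi)
  have hsmall : ∀ i < I, 2 * (3 * κ + 8) * κ ^ i ≤ Fintype.card V := by
    intro i hi
    have h1 := hImin i hi
    have h2 : ((6 * κ + 16 : ℝ)) * ((d : ℝ) * (κ : ℝ) ^ i) ≤ d * (Fintype.card V : ℝ) := by
      calc ((6 * κ + 16 : ℝ)) * ((d : ℝ) * (κ : ℝ) ^ i)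
          ≤ (6 * κ + 16 : ℝ) * (lam * (Fintype.card V : ℝ)) := by
            apply mul_le_mul_of_nonneg_left h1; positivity
        _ = ((6 * κ + 16 : ℝ) * lam) * (Fintype.card V : ℝ) := by ring
        _ ≤ d * (Fintype.card V : ℝ) := by
            apply mul_le_mul_of_nonneg_right hgap; positivity
    have h3 : (6 * κ + 16 : ℝ) * (κ : ℝ) ^ i ≤ (Fintype.card V : ℝ) := by
      have : (d : ℝ) * ((6 * κ + 16 : ℝ) * (κ : ℝ) ^ i) ≤ d * (Fintype.card V : ℝ) := by
        calc (d : ℝ) * ((6 * κ + 16 : ℝ) * (κ : ℝ) ^ i)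
            = ((6 * κ + 16 : ℝ)) * ((d : ℝ) * (κ : ℝ) ^ i) := by ring
          _ ≤ _ := h2
      exact le_of_mul_le_mul_left this hdR
    have h4 : ((2 * (3 * κ + 8) * κ ^ i : ℕ) : ℝ) ≤ (Fintype.card V : ℝ) := by
      push_cast
      calc (2 * (3 * (κ : ℝ) + 8) * (κ : ℝ) ^ i) = (6 * κ + 16 : ℝ) * (κ : ℝ) ^ i := by ring
        _ ≤ _ := h3
    exact_mod_cast h4
  have hE1 : ∀ i < I, ∀ S : Finset V, S.card = κ ^ i →
      (3 * κ + 8) * κ ^ i ≤ (nbrs G S).card := by
    intro i hi S hS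
    have h := expand_small hd hreg hlam hspec (3 * κ + 8) (by omega)
      (by push_cast; calc (2 * (3 * (κ : ℝ) + 8) * lam) = (6 * κ + 16 : ℝ) * lam := by ring
            _ ≤ d := hgap) S (by rw [hS]; exact hsmall i hi)
    rw [hS] at h
    exact h
  apply count hreg
  intro f hf
  obtain ⟨hfm, hcard⟩ := hf
  obtain ⟨u, v, huv, hset⟩ := Finset.card_eq_two.mp hcard
  have hu : f u = u := by
    have : u ∈ univ.filter (fun v => f v = v) := by rw [hset]; simp
    simpa using this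
  have hv : f v = v := by
    have : v ∈ univ.filter (fun v => f v = v) := by rw [hset]; simp
    simpa using this
  have hfix : ∀ x, f x = x → x = u ∨ x = v := by
    intro x hx
    have : x ∈ univ.filter (fun v => f v = v) := by simp [hx]
    rw [hset] at this
    simpa using this
  have hN : 1 ≤ Fintype.card V := Fintype.card_pos_iff.mpr ⟨u⟩
  have hpow : κ ^ I ≤ Fintype.card V := by
    rcases Nat.eq_zero_or_pos I with h0 | hpos
    · rw [h0]; simpa using hN
    · have h1 := hsmall (I - 1) (by omega)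
      have h2 : κ ^ I = κ * κ ^ (I - 1) := by
        rw [← pow_succ']; congr 1; omega
      rw [h2]
      calc κ * κ ^ (I - 1) ≤ 2 * (3 * κ + 8) * κ ^ (I - 1) := by
            apply Nat.mul_le_mul_right; omega
        _ ≤ _ := h1
  have hIlog : I ≤ Nat.log κ (Fintype.card V) := Nat.le_log_of_pow_le (by omega) hpow
  obtain ⟨Eu, Ev, hEu, hEv, hreach⟩ := grow hfm hu hv huv hfix κ hκ I hE1
  obtain ⟨x, hx, y, hy, hxy⟩ := edge_between hreg hlam hspec Eu Ev (κ ^ I) hEu hEv
    (by push_cast; exact hIspec)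
  obtain ⟨g, hg, hgx, hgy⟩ := hreach x hx y hy
  exact ⟨2 * I, by omega, g, hg, x, y, hgx, hgy, hxy⟩

end Vale.Agent.P308.EX
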